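import Mathlib
import Vale.Agent.Lib.P090.Defs

/-!
# P090-B (pool job 402, backup copy of helper12): disjoint unions of metric spaces
-/

namespace Vale.Agent.Lib.P090.H12

open Vale.Agent.Lib.P090
open scoped NNReal ENNReal

universe u

attribute [local instance] Metric.Sigma.metricSpace

variable {E : ℕ → Type u} [∀ n, MetricSpace (E n)]

theorem sigma_mk_lipschitz (n : ℕ) : LipschitzWith 1 (Sigma.mk n : E n → Σ k, E k) :=
  (Metric.Sigma.isometry_mk n).lipschitz

/-- A retraction of the disjoint union onto its `n`-th piece. -/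
noncomputable def sigmaRet (n : ℕ) (c : E n) : (Σ k, E k) → E n := fun p =>
  if h : p.1 = n then h ▸ p.2 else Nonempty.some ⟨c⟩

theorem sigmaRet_mk (n : ℕ) (c x : E n) : sigmaRet n c (Sigma.mk n x) = x := by
  show (if h : n = n then h ▸ x else Nonempty.some ⟨c⟩) = x
  rw [dif_pos rfl]

theorem sigmaRet_of_ne (n : ℕ) (c : E n) (j : ℕ) (y : E j) (hj : ¬ j = n) :
    sigmaRet n c (⟨j, y⟩ : Σ k, E k) = Nonempty.some ⟨c⟩ :=
  dif_neg hj

theorem sigmaRet_lipschitz (n : ℕ) (c : E n) : LipschitzWith 1 (sigmaRet n c) := by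
  refine LipschitzWith.of_dist_le_mul ?_
  rintro ⟨i, x⟩ ⟨j, y⟩
  rw [NNReal.coe_one, one_mul]
  by_cases hi : i = n
  · subst hi
    by_cases hj : j = i
    · subst hj
      rw [sigmaRet_mk, sigmaRet_mk, Metric.Sigma.dist_same]
    · rw [sigmaRet_mk, sigmaRet_of_ne i c j y hj, Metric.Sigma.dist_ne (Ne.symm hj) x y]
      have h1 : (Nonempty.some ⟨c⟩ : E i) = Nonempty.some ⟨x⟩ := rfl
      rw [h1]
      have h2 : 0 ≤ dist (Nonempty.some ⟨y⟩ : E j) y := dist_nonneg
      linarith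
  · by_cases hj : j = n
    · subst hj
      rw [sigmaRet_mk, sigmaRet_of_ne j c i x hi, Metric.Sigma.dist_ne hi x y]
      have h1 : (Nonempty.some ⟨c⟩ : E j) = Nonempty.some ⟨y⟩ := rfl
      rw [h1]
      have h2 : 0 ≤ dist x (Nonempty.some ⟨x⟩ : E i) := dist_nonneg
      linarith
    · rw [sigmaRet_of_ne n c i x hi, sigmaRet_of_ne n c j y hj, dist_self]
      exact dist_nonneg

theorem sigma_uniformlyDiscrete (h : ∀ n, ∀ x y : E n, x ≠ y → 1 ≤ dist x y) :
    UniformlyDiscrete (Σ k, E k) := by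
  refine ⟨1, one_pos, ?_⟩
  rintro ⟨i, x⟩ ⟨j, y⟩ hne
  by_cases hij : i = j
  · subst hij
    rw [Metric.Sigma.dist_same]
    exact h i x y (fun hxy => hne (by rw [hxy]))
  · exact Metric.Sigma.one_le_dist_of_ne hij x y

end Vale.Agent.Lib.P090.H12
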